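import Vale.Agent.P287Z.O.Sta2

/-! # Koszul matrix factorizations of rank sixteen (blocks K1, K3) -/

open MvPolynomial

namespace Vale.Agent.P287Z.O.H826

open scoped symmDiff

section sq

variable {ι : Type} [LinearOrder ι]

theorem sd_mem {a : ι} {J : Finset ι} (h : a ∈ J) : J ∆ {a} = J.erase a := by
  ext c
  simp only [Finset.mem_symmDiff, Finset.mem_singleton, Finset.mem_erase]
  constructor
  · rintro (⟨h1, h2⟩ | ⟨rfl, h2⟩)
    · exact ⟨h2, h1⟩
    · exact absurd h h2
  · rintro ⟨h1, h2⟩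
    exact Or.inl ⟨h2, h1⟩

theorem sd_notMem {a : ι} {J : Finset ι} (h : a ∉ J) : J ∆ {a} = insert a J := by
  ext c
  simp only [Finset.mem_symmDiff, Finset.mem_singleton, Finset.mem_insert]
  constructor
  · rintro (⟨h1, h2⟩ | ⟨rfl, h2⟩)
    · exact Or.inr h1
    · exact Or.inl rfl
  · rintro (rfl | h1)
    · exact Or.inr ⟨rfl, h⟩
    · exact Or.inl ⟨h1, fun h3 => h (h3 ▸ h1)⟩

theorem mem_sd_ne {a b : ι} {J : Finset ι} (h : a ≠ b) : a ∈ J ∆ {b} ↔ a ∈ J := by
  simp [Finset.mem_symmDiff, h]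

theorem mem_sd_self {a : ι} {J : Finset ι} : a ∈ J ∆ {a} ↔ a ∉ J := by
  simp [Finset.mem_symmDiff]

variable {R : Type} [CommRing R]

/-- the sign -/
def sg (R : Type) [CommRing R] (a : ι) (J : Finset ι) : R := (-1) ^ (J.filter (· < a)).card

theorem sg_mul (a : ι) (J : Finset ι) : sg R a J * sg R a J = 1 := by
  rw [sg, ← mul_pow]
  simp

theorem sg_lt {a b : ι} (J : Finset ι) (h : b < a) : sg R a (J ∆ {b}) = - sg R a J := by
  unfold sg
  by_cases hb : b ∈ J
  · rw [sd_mem hb, Finset.filter_erase]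
    have hm : b ∈ J.filter (· < a) := Finset.mem_filter.mpr ⟨hb, h⟩
    obtain ⟨n, hn⟩ : ∃ n, (J.filter (· < a)).card = n + 1 :=
      ⟨_, (Nat.succ_pred_eq_of_pos (Finset.card_pos.mpr ⟨b, hm⟩)).symm⟩
    rw [Finset.card_erase_of_mem hm, hn, Nat.add_sub_cancel, pow_succ]
    ring
  · rw [sd_notMem hb, Finset.filter_insert, if_pos h, Finset.card_insert_of_notMem
      (fun hc => hb (Finset.mem_filter.mp hc).1), pow_succ]
    ring

theorem sg_ge {a b : ι} (J : Finset ι) (h : ¬ b < a) : sg R a (J ∆ {b}) = sg R a J := by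
  unfold sg
  by_cases hb : b ∈ J
  · have hm : b ∉ J.filter (· < a) := fun hc => h (Finset.mem_filter.mp hc).2
    rw [sd_mem hb, Finset.filter_erase, Finset.erase_eq_of_notMem hm]
  · rw [sd_notMem hb, Finset.filter_insert, if_neg h]

variable [Fintype ι]

/-- general Koszul matrix -/
def kz (l q : ι → R) : Matrix (Finset ι) (Finset ι) R := fun I J =>
  ∑ a, if I = J ∆ {a} then sg R a J * (if a ∈ J then l a else q a) else 0

theorem sum_anti [IsDomain R] [CharZero R] (f : ι → ι → R) (h : ∀ a b, a ≠ b → f a b = - f b a) :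
    ∑ a, ∑ b, f a b = ∑ a, f a a := by
  have h1 : (2 : R) * ∑ a, ∑ b, f a b = 2 * ∑ a, f a a := by
    calc (2 : R) * ∑ a, ∑ b, f a b = (∑ a, ∑ b, f a b) + ∑ a, ∑ b, f a b := two_mul _
      _ = (∑ a, ∑ b, f a b) + ∑ a, ∑ b, f b a := by rw [Finset.sum_comm (f := fun a b => f b a)]
      _ = ∑ a, ∑ b, (f a b + f b a) := by simp only [Finset.sum_add_distrib]
      _ = ∑ a, ∑ b, (if a = b then 2 * f a a else 0) := by
          refine Finset.sum_congr rfl fun a _ => Finset.sum_congr rfl fun b _ => ?_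
          split_ifs with hab
          · subst hab; ring
          · rw [h a b hab]; ring
      _ = 2 * ∑ a, f a a := by simp [Finset.mul_sum]
  exact mul_left_cancel₀ two_ne_zero h1

theorem kz_sq [IsDomain R] [CharZero R] (l q : ι → R) :
    kz l q * kz l q = (∑ a, l a * q a) • (1 : Matrix (Finset ι) (Finset ι) R) := by
  ext I J
  rw [Matrix.mul_apply, Matrix.smul_apply, smul_eq_mul]
  let m : ι → Finset ι → R := fun a J => if a ∈ J then l a else q a
  let f : ι → ι → R := fun a b => if I = (J ∆ {a}) ∆ {b} then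
    sg R b (J ∆ {a}) * m b (J ∆ {a}) * (sg R a J * m a J) else 0
  have h1 : ∑ K, kz l q I K * kz l q K J = ∑ a, ∑ b, f a b := by
    have h2 : ∀ K, kz l q I K * kz l q K J = ∑ a, if K = J ∆ {a} then
        (∑ b, f a b) else 0 := by
      intro K
      unfold kz
      rw [Finset.mul_sum]
      refine Finset.sum_congr rfl fun a _ => ?_
      by_cases hK : K = J ∆ {a}
      · subst hK
        rw [if_pos rfl, if_pos rfl, Finset.sum_mul]
        refine Finset.sum_congr rfl fun b _ => ?_
        simp only [f, m]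
        split_ifs <;> ring
      · rw [if_neg hK, if_neg hK, mul_zero]
    simp only [h2]
    rw [Finset.sum_comm]
    refine Finset.sum_congr rfl fun a _ => ?_
    simp
  rw [h1, sum_anti]
  · have h3 : ∀ a, f a a = if I = J then l a * q a else 0 := by
      intro a
      simp only [f, m, symmDiff_symmDiff_cancel_right, mem_sd_self]
      rw [sg_ge J (lt_irrefl a)]
      by_cases hIJ : I = J
      · rw [if_pos hIJ, if_pos hIJ]
        by_cases ha : a ∈ J
        · rw [if_neg (by simpa using ha), if_pos ha]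
          linear_combination (l a * q a) * (sg_mul (R := R) a J)
        · rw [if_pos ha, if_neg ha]
          linear_combination (l a * q a) * (sg_mul (R := R) a J)
      · rw [if_neg hIJ, if_neg hIJ]
    simp only [h3]
    rw [Matrix.one_apply]
    split_ifs
    · simp
    · simp
  · intro a b hab
    simp only [f]
    have hc : (J ∆ {b}) ∆ {a} = (J ∆ {a}) ∆ {b} := symmDiff_right_comm _ _ _
    rw [hc]
    have hm1 : m b (J ∆ {a}) = m b J := by
      simp only [m, mem_sd_ne hab.symm]
    have hm2 : m a (J ∆ {b}) = m a J := by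
      simp only [m, mem_sd_ne hab]
    rw [hm1, hm2]
    split_ifs with hI
    · rcases lt_or_gt_of_ne hab with h | h
      · rw [sg_lt J h, sg_ge J (not_lt.mpr h.le)]
        ring
      · rw [sg_lt J h, sg_ge J (not_lt.mpr h.le)]
        ring
    · simp

end sq

theorem hg_of {f : MvPolynomial (Fin 6) ℂ} {n : ℕ} (h : f.IsHomogeneous n) {k : ℤ}
    (hk : k = 2 * n) : V.Hg k f := by
  intro d hd
  have h1 := h hd
  rw [Finsupp.weight_apply] at h1 ⊢
  rw [hk, ← h1]
  simp only [Finsupp.sum, Pi.one_apply, smul_eq_mul, mul_one, Nat.cast_sum, Finset.mul_sum,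
    nsmul_eq_mul]
  exact Finset.sum_congr rfl fun i _ => mul_comm _ _

end Vale.Agent.P287Z.O.H826
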